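import Vale.Agent.P267.H365.Dual
import Vale.Agent.P267.H451.Frame
import Vale.Agent.P267.H332.Pair.Pair
import Vale.Agent.P267.H399.Calc3
import Vale.Agent.P267.H815.Div

/-!
# P267, D-DIVLB: curvature of the line bundle of a divisor (helper365)

* `isMetric`: `|v_x|²` is a metric on `𝒪(D)` in the sense of `Statement.lean`;
* `isNormFn`, `chern_eq_cF`: `|s|²` is a norm function and its curvature is the Chern curvature;
* `exists_factor`: two norm functions with the same divisor differ by `exp u`, their curvatures by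
  `∂∂̄u`;
* `chern_sum`, `chern_same`, `chern_zero`: the Chern curvature is additive in `D` up to `∂∂̄u`.
-/

open scoped Manifold ContDiff ComplexConjugate Matrix Topology
open Set Filter

noncomputable section

namespace Vale.Agent.P267.H365

open Vale.Agent.P267 Vale.Agent.P267.FL Vale.Agent.P267.H757 Vale.Agent.P267.H332

set_option linter.unusedSectionVars false

variable {X : Type*} [TopologicalSpace X] [ChartedSpace C2 X]
variable [IsManifold 𝓘(ℂ, C2) ω X] {ι : Type} [Fintype ι] [DecidableEq ι] {D : EffDiv X}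

/-! ### the frames -/

section frames

variable (A : H451.DivLB D ι)

theorem frameAt {x y : X} (hy : y ∈ D.U x) : H451.FrameAt A.L A.a (A.v x) y where
  sm := A.v_reg x y hy _ (chart_mem_atlas C2 y) (mem_chart_source C2 y)
  ne := A.v_ne x y hy
  sec := A.v_sec x y hy
  hol := A.v_hol x y hy

/-- the Chern curvature in the local frames -/
theorem chern_frame {x y : X} (hy : y ∈ D.U x) : (A.L.chern A.a).f20 y = 0 ∧
    (A.L.chern A.a).f11 y = -ddb (fun z => ((Real.log (‖A.v x z‖ ^ 2) : ℝ) : ℂ)) y ∧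
    (A.L.chern A.a).f02 y = 0 :=
  H451.frame_chern (D.isOpen x) (fun _ hz => frameAt A hz) hy

/-- `|v_x|²` is a metric on `𝒪(D)` -/
theorem isMetric : D.IsMetric fun x y => ‖A.v x y‖ ^ 2 where
  smooth x y hy e he := (A.v_reg x y hy e he.1 he.2).norm_sq ℝ
  pos x y hy := by
    have := norm_pos_iff.2 (A.v_ne x y hy)
    positivity
  change x x' y hy := by
    have h1 : ‖A.s y‖ ^ 2 = ‖D.f x y‖ ^ 2 * ‖A.v x y‖ ^ 2 := by
      rw [A.s_eq x y hy.1, norm_smul, mul_pow]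
    have h2 : ‖A.s y‖ ^ 2 = ‖D.f x' y‖ ^ 2 * ‖A.v x' y‖ ^ 2 := by
      rw [A.s_eq x' y hy.2, norm_smul, mul_pow]
    rw [← h1, ← h2]

/-- the squared norm of the canonical section -/
def nrm (y : X) : ℝ := ‖A.s y‖ ^ 2

/-- a real function is smooth at a point if its complexification is -/
theorem contMDiffAt_of_ofReal {φ : X → ℝ} {x : X} (h : At0 ∞ 0 (fun y => (φ y : ℂ)) x) :
    ContMDiffAt 𝓘(ℝ, C2) 𝓘(ℝ) ∞ φ x := by
  have h1 := contMDiffAt_iff_at0.2 h
  have h2 : ContMDiff 𝓘(ℝ, ℂ) 𝓘(ℝ) ∞ Complex.re :=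
    (Complex.reCLM.contDiff (n := ∞)).contMDiff
  have h3 := (h2.contMDiffAt (x := ((φ x : ℝ) : ℂ))).comp x h1
  refine h3.congr_of_eventuallyEq (Eventually.of_forall fun y => ?_)
  simp

theorem at0_ofReal {φ : X → ℝ} {x : X} (h : ContMDiffAt 𝓘(ℝ, C2) 𝓘(ℝ) ∞ φ x) :
    At0 ∞ 0 (fun y => (φ y : ℂ)) x := by
  rw [← contMDiffAt_iff_at0]
  have h2 : ContMDiff 𝓘(ℝ) 𝓘(ℝ, ℂ) ∞ (fun t : ℝ => (t : ℂ)) :=
    (Complex.ofRealCLM.contDiff (n := ∞)).contMDiff
  exact (h2.contMDiffAt (x := φ x)).comp x h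

/-- `|s|²` in the frame `v_x` -/
theorem locRep (x : X) :
    LocRep C2 (nrm A) (D.U x) (D.f x) (fun y => -Real.log (‖A.v x y‖ ^ 2)) where
  isOpen := D.isOpen x
  hol := D.holo x
  nz V hV hVU := by
    rintro ⟨y, hy⟩
    obtain ⟨z, hz, hzV⟩ := ((D.ne x y (hVU hy)).and_eventually (hV.mem_nhds hy)).exists
    exact ⟨z, hzV, hz⟩
  smooth y hy := by
    have h := (frameAt A hy).sm_log
    have h1 : At0 ∞ 0 (fun z => ((-Real.log (‖A.v x z‖ ^ 2) : ℝ) : ℂ)) y := by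
      have h2 : At0 ∞ 0 (fun z => ((Real.log (‖A.v x z‖ ^ 2) : ℝ) : ℂ)) y := by
        rw [At0, LB.loc0_zero]
        exact h
      refine h2.neg.congr (Eventually.of_forall fun z => ?_)
      simp
    exact (contMDiffAt_of_ofReal h1).contMDiffWithinAt
  eq y hy := by
    have hp : 0 < ‖A.v x y‖ ^ 2 := by
      have := norm_pos_iff.2 (A.v_ne x y hy)
      positivity
    rw [nrm, A.s_eq x y hy, norm_smul, mul_pow, neg_neg, Real.exp_log hp]

theorem isNormFn : IsNormFn C2 (nrm A) := fun p => ⟨D.U p, D.f p, _, D.mem p, locRep A p⟩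

/-- the Chern curvature of `𝒪(D)` is the curvature of the norm function `|s|²` -/
theorem chern_eq_cF : A.L.chern A.a = cF (nrm A) := by
  refine cF_unique (fun x => (chern_frame A (D.mem x)).1) (fun x => (chern_frame A (D.mem x)).2.2)
    fun p => ⟨D.U p, D.f p, _, D.mem p, locRep A p, fun x hx => ?_⟩
  rw [(chern_frame A hx).2.1]
  have h : (fun y => ((-Real.log (‖A.v p y‖ ^ 2) : ℝ) : ℂ)) =
      fun y => -((Real.log (‖A.v p y‖ ^ 2) : ℝ) : ℂ) := by
    funext y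
    push_cast
    ring
  rw [h]
  have hc : ContDiffAt ℝ 2 (fun z => ((Real.log (‖A.v p ((chartAt C2 x).symm z)‖ ^ 2) : ℝ) : ℂ))
      (chartAt C2 x x) :=
    ContDiffAt.of_le (frameAt A hx).sm_log (WithTop.coe_le_coe.2 le_top)
  rw [ddb_eq hc, ddb_eq (u := fun y => -((Real.log (‖A.v p y‖ ^ 2) : ℝ) : ℂ)) hc.neg, ddz_neg]

end frames

/-! ### norm functions with the same divisor -/

section factor

variable {N N' : X → ℝ}

theorem LocRep.freq {U : Set X} {g : X → ℂ} {φ : X → ℝ} (h : LocRep C2 N U g φ) {x : X}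
    (hx : x ∈ U) : ∃ᶠ y in 𝓝 x, g y ≠ 0 := by
  intro hcon
  obtain ⟨V, hV, hVo, hxV⟩ := _root_.eventually_nhds_iff.1 (hcon.and (h.isOpen.mem_nhds hx))
  obtain ⟨y, hy, hy0⟩ := h.nz V hVo (fun y hy => (hV y hy).2) ⟨x, hxV⟩
  exact (hV y hy).1 hy0

theorem ddb_add {u u' : X → ℂ} {x : X} (hu : At0 ∞ 0 u x) (hu' : At0 ∞ 0 u' x) :
    ddb (fun y => u y + u' y) x = ddb u x + ddb u' x := by
  have h2 : (2 : WithTop ℕ∞) ≤ ∞ := WithTop.coe_le_coe.2 le_top
  have h : ContDiffAt ℝ 2 (fun y => u ((chartAt C2 x).symm y)) (chartAt C2 x x) := by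
    have := hu.of_le h2
    rwa [At0, LB.loc0_zero] at this
  have h' : ContDiffAt ℝ 2 (fun y => u' ((chartAt C2 x).symm y)) (chartAt C2 x x) := by
    have := hu'.of_le h2
    rwa [At0, LB.loc0_zero] at this
  rw [ddb_eq h, ddb_eq h', ddb_eq (u := fun y => u y + u' y) (h.add h'), ddz_add h h']

theorem ddb_congr {u u' : X → ℂ} {x : X} (h : u =ᶠ[𝓝 x] u') : ddb u x = ddb u' x := by
  have h1 : ∀ᶠ y in 𝓝 x, dbar0 0 u y = dbar0 0 u' y := by
    filter_upwards [h.eventually_nhds] with y hy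
    exact dbar0_congr hy
  ext i j
  change dz i _ _ = dz i _ _
  exact dz_congr ((loc1_congr (mem_chart_source C2 x) h1).mono fun z hz => congrFun hz j) i

/-- two norm functions with the same divisor differ by `exp u` and their curvatures by `∂∂̄u` -/
theorem exists_factor (h : ∀ x, ∃ (U : Set X) (g : X → ℂ) (φ φ' : X → ℝ), x ∈ U ∧
    LocRep C2 N U g φ ∧ LocRep C2 N' U g φ') :
    ∃ u : X → ℝ, ContMDiff 𝓘(ℝ, C2) 𝓘(ℝ) ∞ u ∧ (∀ x, N x = N' x * Real.exp (u x)) ∧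
      ∀ x, curvN N x = curvN N' x - ddb (fun y => (u y : ℂ)) x := by
  choose U g φ φ' hU hφ hφ' using h
  have hsm : ∀ x, ∀ y ∈ U x, ContMDiffAt 𝓘(ℝ, C2) 𝓘(ℝ) ∞ (φ x) y := fun x y hy =>
    (hφ x).smooth.contMDiffAt ((hφ x).isOpen.mem_nhds hy)
  have hsm' : ∀ x, ∀ y ∈ U x, ContMDiffAt 𝓘(ℝ, C2) 𝓘(ℝ) ∞ (φ' x) y := fun x y hy =>
    (hφ' x).smooth.contMDiffAt ((hφ x).isOpen.mem_nhds hy)
  have hN : ∀ x, ∀ y ∈ U x, N y = N' y * Real.exp (φ' x y - φ x y) := by
    intro x y hy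
    rw [(hφ x).eq y hy, (hφ' x).eq y hy, mul_assoc, ← Real.exp_add]
    congr 2
    ring
  have key : ∀ x, ∀ y ∈ U x, φ' y y - φ y y = φ' x y - φ x y := by
    intro x y hy
    have h1 : Tendsto (fun z => φ' y z - φ y z) (𝓝 y) (𝓝 (φ' y y - φ y y)) :=
      ((hsm' y y (hU y)).continuousAt.sub (hsm y y (hU y)).continuousAt)
    have h2 : Tendsto (fun z => φ' x z - φ x z) (𝓝 y) (𝓝 (φ' x y - φ x y)) :=
      ((hsm' x y hy).continuousAt.sub (hsm x y hy).continuousAt)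
    refine tendsto_nhds_unique_of_frequently_eq h1 h2 ?_
    have e1 : ∀ᶠ z in 𝓝 y, z ∈ U y := (hφ y).isOpen.mem_nhds (hU y)
    have e2 : ∀ᶠ z in 𝓝 y, z ∈ U x := (hφ x).isOpen.mem_nhds hy
    refine ((LocRep.freq (hφ y) (hU y)).and_eventually (e1.and e2)).mono ?_
    rintro z ⟨hz, hz1, hz2⟩
    have hN' : N' z ≠ 0 := by
      rw [(hφ' y).eq z hz1]
      have := norm_pos_iff.2 hz
      positivity
    have h3 := (hN y z hz1).symm.trans (hN x z hz2)
    exact Real.exp_injective (mul_left_cancel₀ hN' h3)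
  have hloc : ∀ x, (fun y => φ' y y - φ y y) =ᶠ[𝓝 x] fun y => φ' x y - φ x y := fun x => by
    filter_upwards [(hφ x).isOpen.mem_nhds (hU x)] with y hy using key x y hy
  refine ⟨fun y => φ' y y - φ y y, fun x => ?_, fun x => hN x x (hU x), fun x => ?_⟩
  · exact ((hsm' x x (hU x)).sub (hsm x x (hU x))).congr_of_eventuallyEq (hloc x)
  · have h1 : (fun y => ((φ' x y : ℝ) : ℂ)) =ᶠ[𝓝 x]
        fun y => ((φ x y : ℝ) : ℂ) + ((φ' y y - φ y y : ℝ) : ℂ) := by
      filter_upwards [hloc x] with y hy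
      rw [hy]
      push_cast
      ring
    have h2 : At0 ∞ 0 (fun y => ((φ' y y - φ y y : ℝ) : ℂ)) x := by
      refine (at0_ofReal ((hsm' x x (hU x)).sub (hsm x x (hU x)))).congr ?_
      filter_upwards [hloc x] with y hy
      rw [hy]
    rw [curvN_eq_ddb (hφ x) (hU x), curvN_eq_ddb (hφ' x) (hU x), ddb_congr h1,
      ddb_add (at0_ofReal (hsm x x (hU x))) h2]
    abel

/-- changing the local equation by a unit -/
theorem LocRep.unit {U W : Set X} {g g' w : X → ℂ} {φ : X → ℝ} (h : LocRep C2 N U g φ)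
    (hW : IsOpen W) (hWU : W ⊆ U) (hw : MDifferentiableOn 𝓘(ℂ, C2) 𝓘(ℂ) w W)
    (h0 : ∀ x ∈ W, w x ≠ 0) (hg' : ∀ x ∈ W, g' x = w x * g x) :
    LocRep C2 N W g' (fun x => φ x + Real.log (‖w x‖ ^ 2)) := by
  have h1 := h.mono hW hWU
  refine ⟨hW, (mdiffOn_mul hw h1.hol).congr hg', ?_, ?_, ?_⟩
  · intro V hV hVW hne
    obtain ⟨x, hx, hx'⟩ := h1.nz V hV hVW hne
    exact ⟨x, hx, by rw [hg' x (hVW hx)]; exact mul_ne_zero (h0 x (hVW hx)) hx'⟩
  · refine h1.smooth.add ?_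
    have h2 : ContMDiffOn 𝓘(ℝ, C2) 𝓘(ℝ, ℂ) ∞ w W := smoothOn_of_mdifferentiableOn hW hw
    have h3 : ContMDiffOn 𝓘(ℝ, ℂ) 𝓘(ℝ) ∞ (fun c : ℂ => Real.log (‖c‖ ^ 2)) {c | c ≠ 0} := by
      rw [contMDiffOn_iff_contDiffOn]
      refine ContDiffOn.log ((contDiff_norm_sq ℝ).contDiffOn) fun c hc => ?_
      have := norm_pos_iff.2 (show c ≠ 0 from hc)
      positivity
    exact h3.comp h2 fun x hx => h0 x hx
  · intro x hx
    have h4 : 0 < ‖w x‖ ^ 2 := by
      have := norm_pos_iff.2 (h0 x hx)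
      positivity
    rw [h1.eq x hx, hg' x hx, norm_mul, mul_pow, neg_add, Real.exp_add, Real.exp_neg (Real.log _),
      Real.exp_log h4]
    have h5 : ‖w x‖ ≠ 0 := norm_ne_zero_iff.2 (h0 x hx)
    field_simp

end factor

end Vale.Agent.P267.H365
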