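import Vale.Agent.P267.H365.Curv

/-!
# P267, D-DIVLB (5): additivity of the curvature in the divisor (helper365)
-/

open scoped Manifold ContDiff ComplexConjugate Matrix Topology
open Set Filter

noncomputable section

namespace Vale.Agent.P267.H365

open Vale.Agent.P267 Vale.Agent.P267.FL Vale.Agent.P267.H757 Vale.Agent.P267.H332

set_option linter.unusedSectionVars false

variable {X : Type*} [TopologicalSpace X] [ChartedSpace C2 X]

/-! ### exterior derivative of one-forms -/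

section oned

theorem loc10_addF (e : Ch X) (c c' : X → Fin 2 → ℂ) (i : Fin 2) :
    (fun z => loc10 e (c + c') z i) = fun z => loc10 e c z i + loc10 e c' z i := by
  funext z
  simp only [loc10, Pi.add_apply, smul_add, Finset.sum_add_distrib]

theorem loc10_negF (e : Ch X) (c : X → Fin 2 → ℂ) (i : Fin 2) :
    (fun z => loc10 e (-c) z i) = fun z => -loc10 e c z i := by
  funext z
  simp only [loc10, Pi.neg_apply, smul_neg, Finset.sum_neg_distrib]

theorem loc1_addF (e : Ch X) (c c' : X → Fin 2 → ℂ) (i : Fin 2) :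
    (fun z => loc1 0 e (c + c') z i) = fun z => loc1 0 e c z i + loc1 0 e c' z i := by
  funext z
  simp only [loc1, Pi.add_apply, smul_add, Finset.sum_add_distrib]

theorem loc1_negF (e : Ch X) (c : X → Fin 2 → ℂ) (i : Fin 2) :
    (fun z => loc1 0 e (-c) z i) = fun z => -loc1 0 e c z i := by
  funext z
  simp only [loc1, Pi.neg_apply, smul_neg, Finset.sum_neg_distrib]

theorem diff10 {c : X → Fin 2 → ℂ} (h : Reg10 ∞ c) (x : X) (i : Fin 2) :
    DifferentiableAt ℝ (fun z => loc10 (chartAt C2 x) c z i) (chartAt C2 x x) :=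
  differentiableAt_pi.1 (((h _ (chart_mem_atlas C2 x)).contDiffAt
    ((chartAt C2 x).open_target.mem_nhds (mem_chart_target C2 x))).differentiableAt (by simp)) i

theorem diff1 {c : X → Fin 2 → ℂ} (h : Reg1 ∞ 0 c) (x : X) (i : Fin 2) :
    DifferentiableAt ℝ (fun z => loc1 0 (chartAt C2 x) c z i) (chartAt C2 x x) :=
  differentiableAt_pi.1 (((h _ (chart_mem_atlas C2 x)).contDiffAt
    ((chartAt C2 x).open_target.mem_nhds (mem_chart_target C2 x))).differentiableAt (by simp)) i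

theorem smooth_add {A B : OneF X} (hA : A.Smooth) (hB : B.Smooth) : (A + B).Smooth where
  s10 e he := contDiffOn_pi.2 fun i => by
    have h := loc10_addF e A.f10 B.f10 i
    rw [show (fun z => loc10 e (A + B).f10 z i) = _ from h]
    exact (contDiffOn_pi.1 (hA.s10 e he) i).add (contDiffOn_pi.1 (hB.s10 e he) i)
  s01 e he := contDiffOn_pi.2 fun i => by
    have h := loc1_addF e A.f01 B.f01 i
    rw [show (fun z => loc1 0 e (A + B).f01 z i) = _ from h]
    exact (contDiffOn_pi.1 (hA.s01 e he) i).add (contDiffOn_pi.1 (hB.s01 e he) i)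

theorem smooth_neg {A : OneF X} (hA : A.Smooth) : (-A).Smooth where
  s10 e he := contDiffOn_pi.2 fun i => by
    have h := loc10_negF e A.f10 i
    rw [show (fun z => loc10 e (-A).f10 z i) = _ from h]
    exact (contDiffOn_pi.1 (hA.s10 e he) i).neg
  s01 e he := contDiffOn_pi.2 fun i => by
    have h := loc1_negF e A.f01 i
    rw [show (fun z => loc1 0 e (-A).f01 z i) = _ from h]
    exact (contDiffOn_pi.1 (hA.s01 e he) i).neg

theorem smooth_sub {A B : OneF X} (hA : A.Smooth) (hB : B.Smooth) : (A - B).Smooth := by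
  rw [sub_eq_add_neg]
  exact smooth_add hA (smooth_neg hB)

theorem d_add {A B : OneF X} (hA : A.Smooth) (hB : B.Smooth) : (A + B).d = A.d + B.d := by
  ext x
  · change del10 (A.f10 + B.f10) x = del10 A.f10 x + del10 B.f10 x
    unfold del10
    rw [loc10_addF, loc10_addF, dz_add (diff10 hA.s10 x 1) (diff10 hB.s10 x 1),
      dz_add (diff10 hA.s10 x 0) (diff10 hB.s10 x 0)]
    ring
  · rename_i i j
    change dz i (fun z => loc1 0 (chartAt C2 x) (A.f01 + B.f01) z j) (chartAt C2 x x) +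
        -dzb j (fun z => loc10 (chartAt C2 x) (A.f10 + B.f10) z i) (chartAt C2 x x) =
      (dz i (fun z => loc1 0 (chartAt C2 x) A.f01 z j) (chartAt C2 x x) +
        -dzb j (fun z => loc10 (chartAt C2 x) A.f10 z i) (chartAt C2 x x)) +
      (dz i (fun z => loc1 0 (chartAt C2 x) B.f01 z j) (chartAt C2 x x) +
        -dzb j (fun z => loc10 (chartAt C2 x) B.f10 z i) (chartAt C2 x x))
    rw [loc1_addF, loc10_addF, dz_add (diff1 hA.s01 x j) (diff1 hB.s01 x j),
      dzb_add (diff10 hA.s10 x i) (diff10 hB.s10 x i)]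
    ring
  · change dbar1 0 (A.f01 + B.f01) x = dbar1 0 A.f01 x + dbar1 0 B.f01 x
    unfold dbar1
    rw [loc1_addF, loc1_addF, dzb_add (diff1 hA.s01 x 1) (diff1 hB.s01 x 1),
      dzb_add (diff1 hA.s01 x 0) (diff1 hB.s01 x 0)]
    ring

theorem d_neg (A : OneF X) : (-A).d = -A.d := by
  ext x
  · change del10 (-A.f10) x = -del10 A.f10 x
    unfold del10
    rw [loc10_negF, loc10_negF, dz_neg, dz_neg]
    ring
  · rename_i i j
    change dz i (fun z => loc1 0 (chartAt C2 x) (-A.f01) z j) (chartAt C2 x x) +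
        -dzb j (fun z => loc10 (chartAt C2 x) (-A.f10) z i) (chartAt C2 x x) =
      -(dz i (fun z => loc1 0 (chartAt C2 x) A.f01 z j) (chartAt C2 x x) +
        -dzb j (fun z => loc10 (chartAt C2 x) A.f10 z i) (chartAt C2 x x))
    rw [loc1_negF, loc10_negF, dz_neg, dzb_neg]
    ring
  · change dbar1 0 (-A.f01) x = -dbar1 0 A.f01 x
    unfold dbar1
    rw [loc1_negF, loc1_negF, dzb_neg, dzb_neg]
    ring

theorem d_sub {A B : OneF X} (hA : A.Smooth) (hB : B.Smooth) : (A - B).d = A.d - B.d := by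
  rw [sub_eq_add_neg, d_add hA (smooth_neg hB), d_neg, ← sub_eq_add_neg]

end oned

/-! ### Chern connection form -/

section conn

variable {ι : Type} [Fintype ι] [DecidableEq ι]

/-- the difference `a - ā` of the Chern connection and the connection `P d` -/
def conn (a : X → Fin 2 → ℂ) : OneF X := ⟨fun y i => -conj (a y i), a⟩

theorem conn_smooth [IsManifold 𝓘(ℂ, C2) ω X] {a : X → Fin 2 → ℂ} (ha : Reg1 ∞ 0 a) : (conn a).Smooth where
  s10 e he := contDiffOn_pi.2 fun i => by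
    have h : (fun z => loc10 e (conn a).f10 z i) = fun z => -conj (loc1 0 e a z i) := by
      funext z
      exact H451.loc10_neg_conj e a z i
    rw [h]
    exact ((Complex.conjCLE.contDiff.comp_contDiffOn (contDiffOn_pi.1 (ha e he) i))).neg
  s01 := ha

theorem chern_eq_curv (L : LB X ι) (a : X → Fin 2 → ℂ) : L.chern a = L.curv + (conn a).d := rfl

end conn

/-! ### additivity -/

variable [IsManifold 𝓘(ℂ, C2) ω X]

theorem assoc_rep {N : X → ℝ} {U : Set X} {g g' : X → ℂ} {φ : X → ℝ} {x : X}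
    (h : LocRep C2 N U g φ) (hx : x ∈ U) (ha : H815.Assoc g' g x) :
    ∃ (W : Set X) (φ' : X → ℝ), x ∈ W ∧ W ⊆ U ∧ LocRep C2 N W g' φ' := by
  obtain ⟨u, hu, he⟩ := ha
  obtain ⟨W, hW, hWo, hxW⟩ := _root_.eventually_nhds_iff.1
    (hu.1.and (hu.ne.and (he.and (h.isOpen.mem_nhds hx))))
  exact ⟨W, _, hxW, fun y hy => (hW y hy).2.2.2, LocRep.unit h hWo (fun y hy => (hW y hy).2.2.2)
    (fun y hy => (hW y hy).1.mdifferentiableWithinAt) (fun y hy => (hW y hy).2.1)
    fun y hy => (hW y hy).2.2.1⟩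

variable {ι ι₁ ι₂ : Type} [Fintype ι] [DecidableEq ι] [Fintype ι₁] [DecidableEq ι₁]
  [Fintype ι₂] [DecidableEq ι₂] {D D₁ D₂ : EffDiv X}

section

variable (A : H451.DivLB D ι) (A₁ : H451.DivLB D₁ ι₁) (A₂ : H451.DivLB D₂ ι₂)

theorem curvN_sum (h : H815.IsSum D D₁ D₂) : ∃ u : X → ℝ, ContMDiff 𝓘(ℝ, C2) 𝓘(ℝ) ∞ u ∧
    ∀ x, curvN (nrm A) x =
      curvN (nrm A₁) x + curvN (nrm A₂) x - ddb (fun y => (u y : ℂ)) x := by
  obtain ⟨u, hu, -, h2⟩ := exists_factor (N := nrm A) (N' := fun y => nrm A₁ y * nrm A₂ y)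
    fun x => by
      obtain ⟨W, φ', hxW, hWU, hW⟩ := assoc_rep ((locRep A₁ x).mul (locRep A₂ x))
        ⟨D₁.mem x, D₂.mem x⟩ (h x)
      refine ⟨W ∩ D.U x, D.f x, _, φ', ⟨hxW, D.mem x⟩,
        (locRep A x).mono (hW.isOpen.inter (D.isOpen x)) inter_subset_right,
        hW.mono (hW.isOpen.inter (D.isOpen x)) inter_subset_left⟩
  refine ⟨u, hu, fun x => ?_⟩
  rw [h2 x, curvN_mul (isNormFn A₁) (isNormFn A₂)]

theorem curvN_same (h : H815.Same D D₁) : ∃ u : X → ℝ, ContMDiff 𝓘(ℝ, C2) 𝓘(ℝ) ∞ u ∧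
    ∀ x, curvN (nrm A) x = curvN (nrm A₁) x - ddb (fun y => (u y : ℂ)) x := by
  obtain ⟨u, hu, -, h2⟩ := exists_factor (N := nrm A) (N' := nrm A₁)
    fun x => by
      obtain ⟨W, φ', hxW, hWU, hW⟩ := assoc_rep (locRep A₁ x) (D₁.mem x) (h x)
      exact ⟨W ∩ D.U x, D.f x, _, φ', ⟨hxW, D.mem x⟩,
        (locRep A x).mono (hW.isOpen.inter (D.isOpen x)) inter_subset_right,
        hW.mono (hW.isOpen.inter (D.isOpen x)) inter_subset_left⟩
  exact ⟨u, hu, h2⟩

theorem curvN_empty (h : D.supp = ∅) : ∃ u : X → ℝ, ContMDiff 𝓘(ℝ, C2) 𝓘(ℝ) ∞ u ∧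
    ∀ x, curvN (nrm A) x = -ddb (fun y => (u y : ℂ)) x := by
  obtain ⟨u, hu, -, h2⟩ := exists_factor (N := nrm A) (N' := fun _ => 1) fun x => by
    have h0 : D.f x x ≠ 0 := fun h1 => by
      have : x ∈ D.supp := h1
      rw [h] at this
      exact this
    have ha : H815.Assoc (D.f x) (fun _ => 1) x :=
      ⟨D.f x, ⟨H815.holN_f D x (D.mem x), h0⟩, Eventually.of_forall fun z => (mul_one _).symm⟩
    have h1 : LocRep C2 (fun _ : X => (1 : ℝ)) univ (fun _ => 1) (fun _ => 0) :=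
      ⟨isOpen_univ, mdifferentiableOn_const, fun V _ _ hne => ⟨hne.some, hne.some_mem, one_ne_zero⟩,
        contMDiffOn_const, fun y _ => by simp⟩
    obtain ⟨W, φ', hxW, hWU, hW⟩ := assoc_rep h1 (mem_univ x) ha
    exact ⟨W ∩ D.U x, D.f x, _, φ', ⟨hxW, D.mem x⟩,
        (locRep A x).mono (hW.isOpen.inter (D.isOpen x)) inter_subset_right,
        hW.mono (hW.isOpen.inter (D.isOpen x)) inter_subset_left⟩
  refine ⟨u, hu, fun x => ?_⟩
  have h3 : curvN (fun _ : X => (1 : ℝ)) x = 0 := by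
    have h1 : LocRep C2 (fun _ : X => (1 : ℝ)) univ (fun _ => 1) (fun _ => 0) :=
      ⟨isOpen_univ, mdifferentiableOn_const, fun V _ _ hne => ⟨hne.some, hne.some_mem, one_ne_zero⟩,
        contMDiffOn_const, fun y _ => by simp⟩
    rw [curvN_eq h1 (mem_univ x)]
    simpa using ddz_const 0 (chartAt C2 x x)
  rw [h2 x, h3, zero_sub]

/-- **Additivity** of the Chern curvature -/
theorem chern_sum (h : H815.IsSum D D₁ D₂) : ∃ u : X → ℝ, ContMDiff 𝓘(ℝ, C2) 𝓘(ℝ) ∞ u ∧
    A.L.chern A.a = A₁.L.chern A₁.a + A₂.L.chern A₂.a - (dbarF u).d := by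
  obtain ⟨u, hu, h1⟩ := curvN_sum A A₁ A₂ h
  refine ⟨u, hu, ?_⟩
  rw [chern_eq_cF, chern_eq_cF, chern_eq_cF]
  ext x
  · simp [cF, dbarF_d_f20]
  · simp only [cF, TwoF.f11_add, TwoF.f11_sub, Pi.add_apply, Pi.sub_apply, dbarF_d_f11, h1 x]
  · simp [cF, dbarF_d_f02 hu]

theorem chern_same (h : H815.Same D D₁) : ∃ u : X → ℝ, ContMDiff 𝓘(ℝ, C2) 𝓘(ℝ) ∞ u ∧
    A.L.chern A.a = A₁.L.chern A₁.a - (dbarF u).d := by
  obtain ⟨u, hu, h1⟩ := curvN_same A A₁ h
  refine ⟨u, hu, ?_⟩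
  rw [chern_eq_cF, chern_eq_cF]
  ext x
  · simp [cF, dbarF_d_f20]
  · simp only [cF, TwoF.f11_sub, Pi.sub_apply, dbarF_d_f11, h1 x]
  · simp [cF, dbarF_d_f02 hu]

theorem chern_empty (h : D.supp = ∅) : ∃ u : X → ℝ, ContMDiff 𝓘(ℝ, C2) 𝓘(ℝ) ∞ u ∧
    A.L.chern A.a = -(dbarF u).d := by
  obtain ⟨u, hu, h1⟩ := curvN_empty A h
  refine ⟨u, hu, ?_⟩
  rw [chern_eq_cF]
  ext x
  · simp [cF, dbarF_d_f20]
  · simp only [cF, TwoF.f11_neg, Pi.neg_apply, dbarF_d_f11, h1 x]
  · simp [cF, dbarF_d_f02 hu]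

/-- additivity of the first Chern class -/
theorem curv_sum (h : H815.IsSum D D₁ D₂) : ∃ θ : OneF X, θ.Smooth ∧
    A.L.curv = A₁.L.curv + A₂.L.curv + θ.d := by
  obtain ⟨u, hu, h1⟩ := chern_sum A A₁ A₂ h
  have s := conn_smooth A.hol.smooth
  have s₁ := conn_smooth A₁.hol.smooth
  have s₂ := conn_smooth A₂.hol.smooth
  have su := dbarF_smooth hu
  refine ⟨conn A₁.a + conn A₂.a - dbarF u - conn A.a,
    smooth_sub (smooth_sub (smooth_add s₁ s₂) su) s, ?_⟩
  rw [chern_eq_curv, chern_eq_curv, chern_eq_curv] at h1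
  rw [d_sub (smooth_sub (smooth_add s₁ s₂) su) s, d_sub (smooth_add s₁ s₂) su, d_add s₁ s₂]
  rw [eq_sub_of_add_eq h1]
  abel

theorem curv_same (h : H815.Same D D₁) : ∃ θ : OneF X, θ.Smooth ∧
    A.L.curv = A₁.L.curv + θ.d := by
  obtain ⟨u, hu, h1⟩ := chern_same A A₁ h
  have s := conn_smooth A.hol.smooth
  have s₁ := conn_smooth A₁.hol.smooth
  have su := dbarF_smooth hu
  refine ⟨conn A₁.a - dbarF u - conn A.a, smooth_sub (smooth_sub s₁ su) s, ?_⟩
  rw [chern_eq_curv, chern_eq_curv] at h1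
  rw [d_sub (smooth_sub s₁ su) s, d_sub s₁ su]
  rw [eq_sub_of_add_eq h1]
  abel

theorem curv_empty (h : D.supp = ∅) : ∃ θ : OneF X, θ.Smooth ∧ A.L.curv = θ.d := by
  obtain ⟨u, hu, h1⟩ := chern_empty A h
  have s := conn_smooth A.hol.smooth
  have su := dbarF_smooth hu
  refine ⟨-dbarF u - conn A.a, smooth_sub (smooth_neg su) s, ?_⟩
  rw [chern_eq_curv] at h1
  rw [d_sub (smooth_neg su) s, d_neg]
  exact eq_sub_of_add_eq h1

end

end Vale.Agent.P267.H365
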