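import Vale.Agent.P267.H365.Frame
import Vale.Agent.P267.H451.DivDefs
import Vale.Agent.P267.H221.Out

/-!
# P267, D-DIVLB (4): forms with values in `𝒪(-D)` are the smooth forms divisible by `D` (helper365)

`I0 D κ`, `I1 D κ`, `I2 D κ`: the smooth `K^κ`-valued scalar `(0,q)`-forms which near every point
`x` are `D.f x` times a smooth form. For the line bundle `(L, a)` of `D` with canonical section `s`
(helper451's `DivLB`) the pairing with `s` is an isomorphism from the `L.dual`-valued forms with the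
holomorphic structure `-a` onto these, compatible with `∂̄`.
-/

open scoped Manifold ContDiff ComplexConjugate Matrix Topology
open Set Filter

noncomputable section

namespace Vale.Agent.P267.H365

open Vale.Agent.P267 Vale.Agent.P267.FL Vale.Agent.P267.RR

set_option linter.unusedSectionVars false

variable {X : Type*} [TopologicalSpace X] [ChartedSpace C2 X]

section ideal

/-- smooth `K^κ`-valued functions divisible by `D` -/
def I0 (D : EffDiv X) (κ : ℤ) : Submodule ℂ (X → ℂ) where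
  carrier := {α | Reg0 ∞ κ α ∧ ∀ x, ∃ β : X → ℂ, (∀ᶠ y in 𝓝 x, At0 ∞ κ β y) ∧
    ∀ᶠ y in 𝓝 x, α y = D.f x y * β y}
  add_mem' := by
    rintro α α' ⟨h, hβ⟩ ⟨h', hβ'⟩
    refine ⟨Reg0.add h h', fun x => ?_⟩
    obtain ⟨β, h1, h2⟩ := hβ x
    obtain ⟨β', h1', h2'⟩ := hβ' x
    refine ⟨fun y => β y + β' y, ?_, ?_⟩
    · filter_upwards [h1, h1'] with y hy hy' using hy.add hy'
    · filter_upwards [h2, h2'] with y hy hy'
      rw [Pi.add_apply, hy, hy', mul_add]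
  zero_mem' := ⟨reg0_zero κ, fun x => ⟨fun _ => 0, Eventually.of_forall fun _ => at0_zero,
    Eventually.of_forall fun _ => by simp⟩⟩
  smul_mem' := by
    rintro c α ⟨h, hβ⟩
    refine ⟨Reg0.smul c h, fun x => ?_⟩
    obtain ⟨β, h1, h2⟩ := hβ x
    refine ⟨fun y => c • β y, ?_, ?_⟩
    · filter_upwards [h1] with y hy using hy.const_smul c
    · filter_upwards [h2] with y hy
      rw [Pi.smul_apply, hy, smul_eq_mul, smul_eq_mul]
      ring

/-- smooth `K^κ`-valued `(0,1)`-forms divisible by `D` -/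
def I1 (D : EffDiv X) (κ : ℤ) : Submodule ℂ (X → Fin 2 → ℂ) where
  carrier := {α | Reg1 ∞ κ α ∧ ∀ x, ∃ β : X → Fin 2 → ℂ, (∀ᶠ y in 𝓝 x, At1 ∞ κ β y) ∧
    ∀ᶠ y in 𝓝 x, ∀ p, α y p = D.f x y * β y p}
  add_mem' := by
    rintro α α' ⟨h, hβ⟩ ⟨h', hβ'⟩
    refine ⟨Reg1.add h h', fun x => ?_⟩
    obtain ⟨β, h1, h2⟩ := hβ x
    obtain ⟨β', h1', h2'⟩ := hβ' x
    refine ⟨fun y => β y + β' y, ?_, ?_⟩
    · filter_upwards [h1, h1'] with y hy hy' using hy.add hy'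
    · filter_upwards [h2, h2'] with y hy hy' p
      rw [Pi.add_apply, Pi.add_apply, hy, hy', Pi.add_apply, mul_add]
  zero_mem' := ⟨reg1_zero κ, fun x => ⟨fun _ _ => 0, Eventually.of_forall fun _ => at1_zero,
    Eventually.of_forall fun _ _ => by simp⟩⟩
  smul_mem' := by
    rintro c α ⟨h, hβ⟩
    refine ⟨Reg1.smul c h, fun x => ?_⟩
    obtain ⟨β, h1, h2⟩ := hβ x
    refine ⟨fun y p => c • β y p, ?_, ?_⟩
    · filter_upwards [h1] with y hy using hy.const_smul c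
    · filter_upwards [h2] with y hy p
      rw [Pi.smul_apply, Pi.smul_apply, hy, smul_eq_mul, smul_eq_mul]
      ring

/-- smooth `K^κ`-valued `(0,2)`-forms divisible by `D` -/
def I2 (D : EffDiv X) (κ : ℤ) : Submodule ℂ (X → ℂ) where
  carrier := {α | Reg2 ∞ κ α ∧ ∀ x, ∃ β : X → ℂ, (∀ᶠ y in 𝓝 x, At2 ∞ κ β y) ∧
    ∀ᶠ y in 𝓝 x, α y = D.f x y * β y}
  add_mem' := by
    rintro α α' ⟨h, hβ⟩ ⟨h', hβ'⟩
    refine ⟨Reg2.add h h', fun x => ?_⟩
    obtain ⟨β, h1, h2⟩ := hβ x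
    obtain ⟨β', h1', h2'⟩ := hβ' x
    refine ⟨fun y => β y + β' y, ?_, ?_⟩
    · filter_upwards [h1, h1'] with y hy hy' using hy.add hy'
    · filter_upwards [h2, h2'] with y hy hy'
      rw [Pi.add_apply, hy, hy', mul_add]
  zero_mem' := ⟨reg2_zero κ, fun x => ⟨fun _ => 0, Eventually.of_forall fun _ => at2_zero,
    Eventually.of_forall fun _ => by simp⟩⟩
  smul_mem' := by
    rintro c α ⟨h, hβ⟩
    refine ⟨Reg2.smul c h, fun x => ?_⟩
    obtain ⟨β, h1, h2⟩ := hβ x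
    refine ⟨fun y => c • β y, ?_, ?_⟩
    · filter_upwards [h1] with y hy using hy.const_smul c
    · filter_upwards [h2] with y hy
      rw [Pi.smul_apply, hy, smul_eq_mul, smul_eq_mul]
      ring

theorem mem_I0 {D : EffDiv X} {κ : ℤ} {α : X → ℂ} : α ∈ I0 D κ ↔ Reg0 ∞ κ α ∧ ∀ x, ∃ β : X → ℂ,
    (∀ᶠ y in 𝓝 x, At0 ∞ κ β y) ∧ ∀ᶠ y in 𝓝 x, α y = D.f x y * β y := Iff.rfl

theorem mem_I1 {D : EffDiv X} {κ : ℤ} {α : X → Fin 2 → ℂ} : α ∈ I1 D κ ↔ Reg1 ∞ κ α ∧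
    ∀ x, ∃ β : X → Fin 2 → ℂ,
    (∀ᶠ y in 𝓝 x, At1 ∞ κ β y) ∧ ∀ᶠ y in 𝓝 x, ∀ p, α y p = D.f x y * β y p := Iff.rfl

theorem mem_I2 {D : EffDiv X} {κ : ℤ} {α : X → ℂ} : α ∈ I2 D κ ↔ Reg2 ∞ κ α ∧ ∀ x, ∃ β : X → ℂ,
    (∀ᶠ y in 𝓝 x, At2 ∞ κ β y) ∧ ∀ᶠ y in 𝓝 x, α y = D.f x y * β y := Iff.rfl

end ideal

/-! ### two smooth forms which agree frequently near a point agree at the point -/

section freq

variable {V : Type*} [NormedAddCommGroup V] [NormedSpace ℂ V] [IsManifold 𝓘(ℂ, C2) ω X]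

theorem frequently_chart {x : X} {p : X → Prop} (h : ∃ᶠ y in 𝓝 x, p y) :
    ∃ᶠ z in 𝓝 (chartAt C2 x x), p ((chartAt C2 x).symm z) := by
  rw [← (chartAt C2 x).map_nhds_eq (mem_chart_source C2 x), frequently_map]
  refine (h.and_eventually ((chartAt C2 x).open_source.mem_nhds (mem_chart_source C2 x))).mono ?_
  rintro y ⟨hy, hys⟩
  rwa [(chartAt C2 x).left_inv hys]

theorem eq_of_freq0 {κ : ℤ} {w w' : X → V} {x : X} (hw : At0 ∞ κ w x) (hw' : At0 ∞ κ w' x)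
    (h : ∃ᶠ y in 𝓝 x, w y = w' y) : w x = w' x := by
  have h1 : ∃ᶠ z in 𝓝 (chartAt C2 x x), loc0 κ (chartAt C2 x) w z = loc0 κ (chartAt C2 x) w' z :=
    (frequently_chart h).mono fun z hz => by rw [loc0, loc0, hz]
  have h2 := tendsto_nhds_unique_of_frequently_eq (ContDiffAt.continuousAt hw)
    (ContDiffAt.continuousAt hw') h1
  rwa [loc0_chartAt, loc0_chartAt] at h2

theorem eq_of_freq1 {κ : ℤ} {w w' : X → Fin 2 → V} {x : X} (hw : At1 ∞ κ w x)
    (hw' : At1 ∞ κ w' x) (h : ∃ᶠ y in 𝓝 x, w y = w' y) : w x = w' x := by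
  have h1 : ∃ᶠ z in 𝓝 (chartAt C2 x x), loc1 κ (chartAt C2 x) w z = loc1 κ (chartAt C2 x) w' z :=
    (frequently_chart h).mono fun z hz => by funext i; rw [loc1, loc1, hz]
  have h2 := tendsto_nhds_unique_of_frequently_eq (ContDiffAt.continuousAt hw)
    (ContDiffAt.continuousAt hw') h1
  rwa [loc1_chartAt, loc1_chartAt] at h2

theorem eq_of_freq2 {κ : ℤ} {w w' : X → V} {x : X} (hw : At2 ∞ κ w x) (hw' : At2 ∞ κ w' x)
    (h : ∃ᶠ y in 𝓝 x, w y = w' y) : w x = w' x := by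
  have h1 : ∃ᶠ z in 𝓝 (chartAt C2 x x), loc2 κ (chartAt C2 x) w z = loc2 κ (chartAt C2 x) w' z :=
    (frequently_chart h).mono fun z hz => by rw [loc2, loc2, hz]
  have h2 := tendsto_nhds_unique_of_frequently_eq (ContDiffAt.continuousAt hw)
    (ContDiffAt.continuousAt hw') h1
  rwa [loc2_chartAt, loc2_chartAt] at h2

end freq

/-! ### the isomorphisms -/

variable [IsManifold 𝓘(ℂ, C2) ω X] {ι : Type} [Fintype ι] [DecidableEq ι] {D : EffDiv X}

section facts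

variable (A : H451.DivLB D ι)

theorem v_at {x y : X} (hy : y ∈ D.U x) : At0 ∞ 0 (A.v x) y := by
  rw [At0, LB.loc0_zero]
  exact A.v_reg x y hy _ (chart_mem_atlas C2 y) (mem_chart_source C2 y)

theorem dual_at {x y : X} (hy : y ∈ D.U x) : At0 ∞ 0 (fun z => dfr (A.v x z)) y :=
  at0_dfr (v_at A hy) (A.v_ne x y hy)

theorem freq_ne (y : X) : ∃ᶠ z in 𝓝 y, D.f y z ≠ 0 := D.ne y y (D.mem y)

theorem U_nhds {x y : X} (hy : y ∈ D.U x) : ∀ᶠ z in 𝓝 y, z ∈ D.U x := (D.isOpen x).mem_nhds hy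

theorem s_ne_iff {x y : X} (hy : y ∈ D.U x) : A.s y ≠ 0 ↔ D.f x y ≠ 0 := by
  rw [A.s_eq x y hy, smul_ne_zero_iff]
  exact ⟨fun h => h.1, fun h => ⟨h, A.v_ne x y hy⟩⟩

/-- `{s = 0}` is the support of `D` -/
theorem s_eq_zero_iff (y : X) : A.s y = 0 ↔ y ∈ D.supp := by
  have h := s_ne_iff A (D.mem y)
  change _ ↔ D.f y y = 0
  tauto

theorem dfr_s {x y : X} (hy : y ∈ D.U x) (h0 : D.f x y ≠ 0) :
    D.f x y • dfr (A.s y) = dfr (A.v x y) := by
  rw [A.s_eq x y hy, dfr_smul h0, smul_smul, mul_inv_cancel₀ h0, one_smul]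

end facts

section pairing

variable (A : H451.DivLB D ι) (κ : ℤ)

/-- pairing with the canonical section -/
def pair0 (w : X → EuclideanSpace ℂ ι) : X → ℂ := fun y => pr (w y) (A.s y)

/-- pairing with the canonical section -/
def pair1 (w : X → Fin 2 → EuclideanSpace ℂ ι) : X → Fin 2 → ℂ := fun y p => pr (w y p) (A.s y)

theorem pair0_mem {w : X → EuclideanSpace ℂ ι} (hw : w ∈ A0 A.L.dual κ) :
    pair0 A w ∈ I0 D κ := by
  refine ⟨reg0_iff_at.2 fun x => at0_pr (hw.1.at x) (A.s_reg.at x), fun x => ?_⟩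
  refine ⟨fun y => pr (w y) (A.v x y), ?_, ?_⟩
  · filter_upwards [U_nhds (D.mem x)] with y hy using at0_pr (hw.1.at y) (v_at A hy)
  · filter_upwards [U_nhds (D.mem x)] with y hy
    rw [pair0, A.s_eq x y hy, pr_smul_right]

theorem pair1_mem {w : X → Fin 2 → EuclideanSpace ℂ ι} (hw : w ∈ A1 A.L.dual κ) :
    pair1 A w ∈ I1 D κ := by
  refine ⟨reg1_iff_at.2 fun x => at1_pr (hw.1.at x) (A.s_reg.at x), fun x => ?_⟩
  refine ⟨fun y p => pr (w y p) (A.v x y), ?_, ?_⟩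
  · filter_upwards [U_nhds (D.mem x)] with y hy using at1_pr (hw.1.at y) (v_at A hy)
  · filter_upwards [U_nhds (D.mem x)] with y hy p
    rw [pair1, A.s_eq x y hy, pr_smul_right]

theorem pair2_mem {w : X → EuclideanSpace ℂ ι} (hw : w ∈ A2 A.L.dual κ) :
    pair0 A w ∈ I2 D κ := by
  refine ⟨reg2_iff_at.2 fun x => at2_pr (hw.1.at x) (A.s_reg.at x), fun x => ?_⟩
  refine ⟨fun y => pr (w y) (A.v x y), ?_, ?_⟩
  · filter_upwards [U_nhds (D.mem x)] with y hy using at2_pr (hw.1.at y) (v_at A hy)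
  · filter_upwards [U_nhds (D.mem x)] with y hy
    rw [pair0, A.s_eq x y hy, pr_smul_right]

theorem eq_zero_of_pr {y : X} {w : EuclideanSpace ℂ ι} (hw : LB.act (A.L.dual.P y) w = w)
    (h0 : pr w (A.s y) = 0) (hf : D.f y y ≠ 0) : w = 0 := by
  have hs : A.s y ≠ 0 := (s_ne_iff A (D.mem y)).2 hf
  rw [dual_eq (A.s_sec y) hs hw, h0, zero_smul]

theorem eq_zero_of_pr' {x y : X} (hy : y ∈ D.U x) {w : EuclideanSpace ℂ ι}
    (hw : LB.act (A.L.dual.P y) w = w)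
    (h0 : pr w (A.s y) = 0) (hf : D.f x y ≠ 0) : w = 0 := by
  have hs : A.s y ≠ 0 := (s_ne_iff A hy).2 hf
  rw [dual_eq (A.s_sec y) hs hw, h0, zero_smul]

theorem pair0_inj {w : X → EuclideanSpace ℂ ι} (hw : w ∈ A0 A.L.dual κ)
    (h : pair0 A w = 0) : w = 0 := by
  funext y
  have h1 : At0 ∞ κ (fun _ : X => (0 : EuclideanSpace ℂ ι)) y := at0_zero
  refine eq_of_freq0 (hw.1.at y) h1 ?_
  refine ((freq_ne (D := D) y).and_eventually (U_nhds (D.mem y))).mono ?_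
  rintro z ⟨hz, hzU⟩
  exact eq_zero_of_pr' A hzU (hw.2 z) (congrFun h z) hz

theorem pair1_inj {w : X → Fin 2 → EuclideanSpace ℂ ι} (hw : w ∈ A1 A.L.dual κ)
    (h : pair1 A w = 0) : w = 0 := by
  funext y
  have h1 : At1 ∞ κ (fun (_ : X) (_ : Fin 2) => (0 : EuclideanSpace ℂ ι)) y := at1_zero
  refine eq_of_freq1 (hw.1.at y) h1 ?_
  refine ((freq_ne (D := D) y).and_eventually (U_nhds (D.mem y))).mono ?_
  rintro z ⟨hz, hzU⟩
  funext p
  exact eq_zero_of_pr' A hzU (hw.2 z p) (congrFun (congrFun h z) p) hz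

theorem pair2_inj {w : X → EuclideanSpace ℂ ι} (hw : w ∈ A2 A.L.dual κ)
    (h : pair0 A w = 0) : w = 0 := by
  funext y
  have h1 : At2 ∞ κ (fun _ : X => (0 : EuclideanSpace ℂ ι)) y := at2_zero
  refine eq_of_freq2 (hw.1.at y) h1 ?_
  refine ((freq_ne (D := D) y).and_eventually (U_nhds (D.mem y))).mono ?_
  rintro z ⟨hz, hzU⟩
  exact eq_zero_of_pr' A hzU (hw.2 z) (congrFun h z) hz

variable {A} in
theorem at0_beta {x y : X} {β : X → ℂ} {κ : ℤ} (hy : y ∈ D.U x) (hβ : At0 ∞ κ β y) :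
    At0 ∞ κ (fun z => β z • dfr (A.v x z)) y := by
  have := hβ.smul' (dual_at A hy)
  rwa [add_zero] at this

variable {A} in
theorem at1_beta {x y : X} {β : X → Fin 2 → ℂ} {κ : ℤ} (hy : y ∈ D.U x) (hβ : At1 ∞ κ β y) :
    At1 ∞ κ (fun z p => β z p • dfr (A.v x z)) y := by
  have := hβ.smul_right' (dual_at A hy)
  rwa [add_zero] at this

variable {A} in
theorem at2_beta {x y : X} {β : X → ℂ} {κ : ℤ} (hy : y ∈ D.U x) (hβ : At2 ∞ κ β y) :
    At2 ∞ κ (fun z => β z • dfr (A.v x z)) y := by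
  have := At2.bilin' (B := ContinuousLinearMap.lsmul ℂ ℂ) hβ (dual_at A hy)
  rwa [add_zero] at this

/-- the quotient by `D` does not depend on the local equation -/
theorem beta_eq {x y z : X} {α b b' : ℂ} (hx : z ∈ D.U x) (hy : z ∈ D.U y) (hf : D.f y z ≠ 0)
    (h : α = D.f y z * b) (h' : α = D.f x z * b') : b • dfr (A.v y z) = b' • dfr (A.v x z) := by
  have hf' : D.f x z ≠ 0 := (s_ne_iff A hx).1 ((s_ne_iff A hy).2 hf)
  rw [← dfr_s A hx hf', ← dfr_s A hy hf, smul_smul, smul_smul, mul_comm b, ← h, mul_comm b', ← h']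

theorem pair0_surj {α : X → ℂ} (hα : α ∈ I0 D κ) :
    ∃ w ∈ A0 A.L.dual κ, pair0 A w = α := by
  choose β hβ1 hβ2 using hα.2
  have key : ∀ x, ∀ᶠ y in 𝓝 x, β y y • dfr (A.v y y) = β x y • dfr (A.v x y) := by
    intro x
    filter_upwards [hβ1 x, (hβ2 x).eventually_nhds, U_nhds (D.mem x)] with y h1 h2 h3
    refine eq_of_freq0 (at0_beta (D.mem y) (hβ1 y).self_of_nhds) (at0_beta h3 h1) ?_
    refine ((freq_ne (D := D) y).and_eventually
      ((U_nhds (D.mem y)).and ((U_nhds h3).and (h2.and (hβ2 y))))).mono ?_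
    rintro z ⟨hz, hz1, hz2, hz3, hz4⟩
    exact beta_eq A hz2 hz1 hz hz4 hz3
  refine ⟨fun y => β y y • dfr (A.v y y), ⟨reg0_iff_at.2 fun x => ?_, fun y => ?_⟩, ?_⟩
  · exact (at0_beta (D.mem x) (hβ1 x).self_of_nhds).congr (key x)
  · rw [act_smul, act_dfr (A.v_sec y y (D.mem y)) (A.v_ne y y (D.mem y))]
  · funext y
    rw [pair0, A.s_eq y y (D.mem y), pr_smul_left, pr_smul_right, pr_dfr (A.v_ne y y (D.mem y)),
      mul_one, mul_comm]
    exact ((hβ2 y).self_of_nhds).symm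

theorem pair1_surj {α : X → Fin 2 → ℂ} (hα : α ∈ I1 D κ) :
    ∃ w ∈ A1 A.L.dual κ, pair1 A w = α := by
  choose β hβ1 hβ2 using hα.2
  have key : ∀ x, ∀ᶠ y in 𝓝 x, (fun p => β y y p • dfr (A.v y y)) =
      fun p => β x y p • dfr (A.v x y) := by
    intro x
    filter_upwards [hβ1 x, (hβ2 x).eventually_nhds, U_nhds (D.mem x)] with y h1 h2 h3
    refine eq_of_freq1 (w := fun z p => β y z p • dfr (A.v y z))
      (at1_beta (D.mem y) (hβ1 y).self_of_nhds) (at1_beta h3 h1) ?_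
    refine ((freq_ne (D := D) y).and_eventually
      ((U_nhds (D.mem y)).and ((U_nhds h3).and (h2.and (hβ2 y))))).mono ?_
    rintro z ⟨hz, hz1, hz2, hz3, hz4⟩
    funext p
    exact beta_eq A hz2 hz1 hz (hz4 p) (hz3 p)
  refine ⟨fun y p => β y y p • dfr (A.v y y), ⟨reg1_iff_at.2 fun x => ?_, fun y p => ?_⟩, ?_⟩
  · exact (at1_beta (D.mem x) (hβ1 x).self_of_nhds).congr (key x)
  · rw [act_smul, act_dfr (A.v_sec y y (D.mem y)) (A.v_ne y y (D.mem y))]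
  · funext y p
    rw [pair1, A.s_eq y y (D.mem y), pr_smul_left, pr_smul_right, pr_dfr (A.v_ne y y (D.mem y)),
      mul_one, mul_comm]
    exact ((hβ2 y).self_of_nhds p).symm

theorem pair2_surj {α : X → ℂ} (hα : α ∈ I2 D κ) :
    ∃ w ∈ A2 A.L.dual κ, pair0 A w = α := by
  choose β hβ1 hβ2 using hα.2
  have key : ∀ x, ∀ᶠ y in 𝓝 x, β y y • dfr (A.v y y) = β x y • dfr (A.v x y) := by
    intro x
    filter_upwards [hβ1 x, (hβ2 x).eventually_nhds, U_nhds (D.mem x)] with y h1 h2 h3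
    refine eq_of_freq2 (at2_beta (D.mem y) (hβ1 y).self_of_nhds) (at2_beta h3 h1) ?_
    refine ((freq_ne (D := D) y).and_eventually
      ((U_nhds (D.mem y)).and ((U_nhds h3).and (h2.and (hβ2 y))))).mono ?_
    rintro z ⟨hz, hz1, hz2, hz3, hz4⟩
    exact beta_eq A hz2 hz1 hz hz4 hz3
  refine ⟨fun y => β y y • dfr (A.v y y), ⟨reg2_iff_at.2 fun x => ?_, fun y => ?_⟩, ?_⟩
  · exact (at2_beta (D.mem x) (hβ1 x).self_of_nhds).congr (key x)
  · rw [act_smul, act_dfr (A.v_sec y y (D.mem y)) (A.v_ne y y (D.mem y))]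
  · funext y
    rw [pair0, A.s_eq y y (D.mem y), pr_smul_left, pr_smul_right, pr_dfr (A.v_ne y y (D.mem y)),
      mul_one, mul_comm]
    exact ((hβ2 y).self_of_nhds).symm

theorem pair0_add (w w' : X → EuclideanSpace ℂ ι) : pair0 A (w + w') = pair0 A w + pair0 A w' :=
  funext fun _ => pr_add_left _ _ _

theorem pair0_smul (c : ℂ) (w : X → EuclideanSpace ℂ ι) : pair0 A (c • w) = c • pair0 A w :=
  funext fun _ => pr_smul_left _ _ _

theorem pair1_add (w w' : X → Fin 2 → EuclideanSpace ℂ ι) :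
    pair1 A (w + w') = pair1 A w + pair1 A w' :=
  funext fun _ => funext fun _ => pr_add_left _ _ _

theorem pair1_smul (c : ℂ) (w : X → Fin 2 → EuclideanSpace ℂ ι) :
    pair1 A (c • w) = c • pair1 A w :=
  funext fun _ => funext fun _ => pr_smul_left _ _ _

/-- the pairing as a linear map -/
def E0l : A0 A.L.dual κ →ₗ[ℂ] I0 D κ where
  toFun w := ⟨pair0 A w.1, pair0_mem A κ w.2⟩
  map_add' w w' := Subtype.ext (pair0_add A w.1 w'.1)
  map_smul' c w := Subtype.ext (pair0_smul A c w.1)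

/-- the pairing as a linear map -/
def E1l : A1 A.L.dual κ →ₗ[ℂ] I1 D κ where
  toFun w := ⟨pair1 A w.1, pair1_mem A κ w.2⟩
  map_add' w w' := Subtype.ext (pair1_add A w.1 w'.1)
  map_smul' c w := Subtype.ext (pair1_smul A c w.1)

/-- the pairing as a linear map -/
def E2l : A2 A.L.dual κ →ₗ[ℂ] I2 D κ where
  toFun w := ⟨pair0 A w.1, pair2_mem A κ w.2⟩
  map_add' w w' := Subtype.ext (pair0_add A w.1 w'.1)
  map_smul' c w := Subtype.ext (pair0_smul A c w.1)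

theorem E0l_bij : Function.Bijective (E0l A κ) := by
  refine ⟨(injective_iff_map_eq_zero _).2 fun w hw => ?_, fun α => ?_⟩
  · exact Subtype.ext (pair0_inj A κ w.2 (congrArg Subtype.val hw))
  · obtain ⟨w, hw, h⟩ := pair0_surj A κ α.2
    exact ⟨⟨w, hw⟩, Subtype.ext h⟩

theorem E1l_bij : Function.Bijective (E1l A κ) := by
  refine ⟨(injective_iff_map_eq_zero _).2 fun w hw => ?_, fun α => ?_⟩
  · exact Subtype.ext (pair1_inj A κ w.2 (congrArg Subtype.val hw))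
  · obtain ⟨w, hw, h⟩ := pair1_surj A κ α.2
    exact ⟨⟨w, hw⟩, Subtype.ext h⟩

theorem E2l_bij : Function.Bijective (E2l A κ) := by
  refine ⟨(injective_iff_map_eq_zero _).2 fun w hw => ?_, fun α => ?_⟩
  · exact Subtype.ext (pair2_inj A κ w.2 (congrArg Subtype.val hw))
  · obtain ⟨w, hw, h⟩ := pair2_surj A κ α.2
    exact ⟨⟨w, hw⟩, Subtype.ext h⟩

/-- **Functions**: `A^{0,0}(K^κ ⊗ 𝒪(-D)) ≃ I0 D κ` -/
def E0 : A0 A.L.dual κ ≃ₗ[ℂ] I0 D κ := LinearEquiv.ofBijective (E0l A κ) (E0l_bij A κ)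

/-- **`(0,1)`-forms**: `A^{0,1}(K^κ ⊗ 𝒪(-D)) ≃ I1 D κ` -/
def E1 : A1 A.L.dual κ ≃ₗ[ℂ] I1 D κ := LinearEquiv.ofBijective (E1l A κ) (E1l_bij A κ)

/-- **`(0,2)`-forms**: `A^{0,2}(K^κ ⊗ 𝒪(-D)) ≃ I2 D κ` -/
def E2 : A2 A.L.dual κ ≃ₗ[ℂ] I2 D κ := LinearEquiv.ofBijective (E2l A κ) (E2l_bij A κ)

@[simp] theorem coe_E0 (w : A0 A.L.dual κ) : (E0 A κ w : X → ℂ) = pair0 A w.1 := rfl

@[simp] theorem coe_E1 (w : A1 A.L.dual κ) : (E1 A κ w : X → Fin 2 → ℂ) = pair1 A w.1 := rfl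

@[simp] theorem coe_E2 (w : A2 A.L.dual κ) : (E2 A κ w : X → ℂ) = pair0 A w.1 := rfl

/-- the pairing commutes with `∂̄`, degree `0` -/
theorem dbar0_pair {w : X → EuclideanSpace ℂ ι} (hw : w ∈ A0 A.L.dual κ) :
    dbar0 κ (pair0 A w) = pair1 A (A.L.dual.db0 (-A.a) κ w) := by
  funext x j
  exact dbar0_pr_hol (hw.1.at x) (A.s_reg.at x) (hw.2 x) (A.s_sec x) (A.s_hol x) j

/-- the pairing commutes with `∂̄`, degree `1` -/
theorem dbar1_pair {w : X → Fin 2 → EuclideanSpace ℂ ι} (hw : w ∈ A1 A.L.dual κ) :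
    dbar1 κ (pair1 A w) = pair0 A (A.L.dual.db1 (-A.a) κ w) := by
  funext x
  exact dbar1_pr_hol (hw.1.at x) (A.s_reg.at x) (hw.2 x) (A.s_sec x) (A.s_hol x)

end pairing

end Vale.Agent.P267.H365
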