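import Vale.Agent.P267.H365.CurvSum
import Vale.Agent.P267.H332.Pair.IntAx
import Vale.Agent.P267.H399.LBCurv

/-!
# P267, D-DIVLB (3): intersection numbers and the self-intersection of `Statement.lean` (helper365)

`X` compact. `isec` (helper221) is additive in the divisor and invariant under exact changes of the
curvature; `selfInt`: `D² = isec L L` in the sense of `EffDiv.SelfInt`.
-/

open scoped Manifold ContDiff ComplexConjugate Matrix Topology
open Set Filter MeasureTheory

noncomputable section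

namespace Vale.Agent.P267.H365

open Vale.Agent.P267 Vale.Agent.P267.FL Vale.Agent.P267.H757 Vale.Agent.P267.H332

set_option linter.unusedSectionVars false

variable {X : Type*} [TopologicalSpace X] [ChartedSpace C2 X] [IsManifold 𝓘(ℂ, C2) ω X]
variable {ι : Type} [Fintype ι] [DecidableEq ι] {ι' : Type} [Fintype ι'] [DecidableEq ι']
variable {D : EffDiv X}

/-! ### the curvature density in a chart -/

theorem dz_P272 (j : Fin 2) (f : C2 → ℂ) (z : C2) : P272.K.dz j f z = dz j f z := by
  simp only [P272.K.dz, dz, smul_eq_mul]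
  ring

theorem dzb_P272 (j : Fin 2) (f : C2 → ℂ) (z : C2) : P272.K.dzb j f z = dzb j f z := by
  simp only [P272.K.dzb, dzb, smul_eq_mul]
  ring

theorem cHess_eq (f : C2 → ℝ) (z : C2) :
    P272.K.cHess f z = ddz (fun y => (f y : ℂ)) z := by
  ext i j
  simp only [P272.K.cHess, Matrix.of_apply, ddz_apply, dz_P272]
  congr 1
  funext y
  exact dzb_P272 j _ y

section selfint

variable (A : H451.DivLB D ι)

theorem density {e : Ch X} (he : e ∈ atlas C2 X) {z : C2} (hz : z ∈ e.target) :
    ((2 / Real.pi ^ 2 * (P272.K.cHess (fun w => Real.log (‖A.v (e.symm z) (e.symm w)‖ ^ 2))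
      z).det.re : ℝ) : ℂ) = -(1 / (4 * (Real.pi : ℂ) ^ 2)) *
        (4 * loc2 1 e ((A.L.chern A.a).wedge (A.L.chern A.a)) z) := by
  have hU : e.symm z ∈ D.U (e.symm z) := D.mem _
  have h1 := loc11_curvN (locRep A (e.symm z)) he hz hU
  have hcd := lr_cda (locRep A (e.symm z)) he hz hU
  have h2 : (ddz (fun y => ((-Real.log (‖A.v (e.symm z) (e.symm y)‖ ^ 2) : ℝ) : ℂ)) z) =
      -(P272.K.cHess (fun w => Real.log (‖A.v (e.symm z) (e.symm w)‖ ^ 2)) z) := by
    rw [cHess_eq, ← ddz_neg]
    congr 1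
    funext y
    push_cast
    ring
  set H := P272.K.cHess (fun w => Real.log (‖A.v (e.symm z) (e.symm w)‖ ^ 2)) z with hH
  have hherm : ∀ i j, H j i = conj (H i j) := by
    intro i j
    have h3 := ddz_real (hcd.of_le (WithTop.coe_le_coe.2 le_top))
      (Eventually.of_forall fun y => Complex.conj_ofReal _) i j
    rw [h2] at h3
    simpa using h3
  have hdet : H.det = ((H.det.re : ℝ) : ℂ) := by
    have h4 : conj H.det = H.det := by
      rw [Matrix.det_fin_two, map_sub, map_mul, map_mul, ← hherm 0 0, ← hherm 1 1, ← hherm 0 1,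
        ← hherm 1 0]
      ring
    exact (Complex.conj_eq_iff_re.1 h4).symm
  have h5 : loc2 1 e ((A.L.chern A.a).wedge (A.L.chern A.a)) z = -(2 * H.det) := by
    rw [chern_eq_cF, loc2_wedge]
    have h6 : loc0 1 e (cF (nrm A)).f20 z = 0 := by simp [loc0, cF]
    have h7 : (cF (nrm A)).f11 = curvN (nrm A) := rfl
    rw [h6, h7, h1, h2, Matrix.det_fin_two]
    simp only [Matrix.neg_apply]
    ring
  rw [h5, Complex.ofReal_mul, ← hdet]
  push_cast
  ring

/-- the self-intersection number of `Statement.lean` from the integral of the Chern form -/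
theorem selfInt_of_hasInt [CompactSpace X] {I : ℂ}
    (hI : HasInt ((A.L.chern A.a).wedge (A.L.chern A.a)) I) :
    D.SelfInt (-(1 / (4 * (Real.pi : ℂ) ^ 2)) * I).re := by
  refine ⟨fun x y => ‖A.v x y‖ ^ 2, isMetric A, ?_⟩
  intro N e ρ he hc hs h1
  have h2 := hI N e ρ he hc (fun i => HasCompactSupport.of_compactSpace (ρ i)) hs
    (fun x _ => h1 x)
  have key : ∀ i, (((∫ z in (e i).target, ρ i ((e i).symm z) * (2 / Real.pi ^ 2 *
      (P272.K.cHess (fun w => Real.log (‖A.v ((e i).symm z) ((e i).symm w)‖ ^ 2)) z).det.re)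
      : ℝ)) : ℂ) = -(1 / (4 * (Real.pi : ℂ) ^ 2)) *
        ∫ z in (e i).target, (4 * (ρ i ((e i).symm z) : ℂ)) *
          loc2 1 (e i) ((A.L.chern A.a).wedge (A.L.chern A.a)) z := by
    intro i
    rw [← integral_complex_ofReal, ← integral_const_mul]
    refine setIntegral_congr_fun (e i).open_target.measurableSet fun z hz => ?_
    have h3 := density A (he i) hz
    simp only [Complex.ofReal_mul] at h3 ⊢
    rw [h3]
    ring
  have h4 : (((∑ i, ∫ z in (e i).target, ρ i ((e i).symm z) * (2 / Real.pi ^ 2 *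
      (P272.K.cHess (fun w => Real.log (‖A.v ((e i).symm z) ((e i).symm w)‖ ^ 2)) z).det.re)
      : ℝ)) : ℂ) = -(1 / (4 * (Real.pi : ℂ) ^ 2)) * I := by
    rw [Complex.ofReal_sum, Finset.sum_congr rfl fun i _ => key i, ← Finset.mul_sum, h2]
  rw [← h4, Complex.ofReal_re]

end selfint

/-! ### intersection numbers -/

section isec

variable [T2Space X] [CompactSpace X]

theorem compact_supp2 (η : TwoF X) : IsCompact (supp2 η) := isClosed_closure.isCompact

theorem compact_supp1 (θ : OneF X) : IsCompact (supp1 θ) := isClosed_closure.isCompact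

theorem intX_wedge_add {F G H : TwoF X} (hF : F.Smooth) (hG : G.Smooth) (hH : H.Smooth) :
    intX ((F + G).wedge H) = intX (F.wedge H) + intX (G.wedge H) := by
  have h := intAx.add (X := X) (F.wedge H) (G.wedge H) (reg2_wedge hF hH) (reg2_wedge hG hH)
    (HasCompactSupport.of_compactSpace _) (HasCompactSupport.of_compactSpace _)
  rw [← h]
  congr 1
  funext x
  simp only [TwoF.wedge, TwoF.f20_add, TwoF.f11_add, TwoF.f02_add, Pi.add_apply, Matrix.add_apply]
  ring

theorem stokes_left {θ : OneF X} {η : TwoF X} (hθ : θ.Smooth) (hη : η.Smooth) (hc : η.Closed) :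
    intX (θ.d.wedge η) = 0 := stokesD θ η hθ (compact_supp1 θ) hη hc

theorem d_smooth {θ : OneF X} {F G : TwoF X} (hF : F.Smooth) (hG : G.Smooth)
    (h : F = G + θ.d) : θ.d.Smooth := by
  have h1 : θ.d = F + (-1 : ℂ) • G := by
    rw [h]
    module
  rw [h1]
  exact TwoF_smooth_add hF (TwoF_smooth_smul _ hG)

/-- changing a form by an exact one does not change the integral against a closed form -/
theorem intX_exact {θ : OneF X} {F G H : TwoF X} (hθ : θ.Smooth) (hF : F.Smooth)
    (hG : G.Smooth) (hH : H.Smooth) (hc : H.Closed) (h : F = G + θ.d) :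
    intX (F.wedge H) = intX (G.wedge H) := by
  rw [h, intX_wedge_add hG (d_smooth hF hG h) hH, stokes_left hθ hH hc, add_zero]

theorem isec_exact {L : LB X ι} {L' : LB X ι'} {ι'' : Type} [Fintype ι''] [DecidableEq ι'']
    (M : LB X ι'') {θ : OneF X} (hθ : θ.Smooth) (h : L.curv = L'.curv + θ.d) :
    RR.isec L M = RR.isec L' M := by
  rw [RR.isec, RR.isec, intX_exact hθ L.curv_smooth L'.curv_smooth M.curv_smooth M.curv_closed h]

theorem isec_comm (L : LB X ι) (L' : LB X ι') : RR.isec L L' = RR.isec L' L := by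
  rw [RR.isec, RR.isec, H332.wedge_comm']

variable {ι₁ ι₂ : Type} [Fintype ι₁] [DecidableEq ι₁] [Fintype ι₂] [DecidableEq ι₂]
  {D₁ D₂ : EffDiv X} (A : H451.DivLB D ι) (A₁ : H451.DivLB D₁ ι₁) (A₂ : H451.DivLB D₂ ι₂)

/-- `(D₁ + D₂) · M = D₁ · M + D₂ · M` -/
theorem isec_sum (h : H815.IsSum D D₁ D₂) (M : LB X ι') :
    RR.isec A.L M = RR.isec A₁.L M + RR.isec A₂.L M := by
  obtain ⟨θ, hθ, h1⟩ := curv_sum A A₁ A₂ h
  have hs : (A₁.L.curv + A₂.L.curv).Smooth := TwoF_smooth_add A₁.L.curv_smooth A₂.L.curv_smooth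
  rw [RR.isec, RR.isec, RR.isec, intX_exact hθ A.L.curv_smooth hs M.curv_smooth M.curv_closed h1,
    intX_wedge_add A₁.L.curv_smooth A₂.L.curv_smooth M.curv_smooth]
  ring

theorem isec_same (h : H815.Same D D₁) (M : LB X ι') : RR.isec A.L M = RR.isec A₁.L M := by
  obtain ⟨θ, hθ, h1⟩ := curv_same A A₁ h
  exact isec_exact M hθ h1

theorem isec_empty (h : D.supp = ∅) (M : LB X ι') : RR.isec A.L M = 0 := by
  obtain ⟨θ, hθ, h1⟩ := curv_empty A h
  rw [RR.isec, h1, stokes_left hθ M.curv_smooth M.curv_closed, mul_zero]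

/-- `D²` computed with the Chern curvature -/
theorem isec_self_chern : RR.isec A.L A.L = -(1 / (4 * (Real.pi : ℂ) ^ 2)) *
    intX ((A.L.chern A.a).wedge (A.L.chern A.a)) := by
  have hcs : (A.L.chern A.a).Smooth := by
    rw [chern_eq_cF]
    exact cF_smooth (isNormFn A)
  have hcc : (A.L.chern A.a).Closed := by
    rw [chern_eq_cF]
    exact cF_closed (isNormFn A)
  have h1 : A.L.chern A.a = A.L.curv + (conn A.a).d := chern_eq_curv _ _
  have hθ := conn_smooth A.hol.smooth
  rw [RR.isec, intX_exact hθ hcs A.L.curv_smooth hcs hcc h1,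
    H332.wedge_comm' A.L.curv (A.L.chern A.a),
    intX_exact hθ hcs A.L.curv_smooth A.L.curv_smooth A.L.curv_closed h1]

/-- **`D²` in the sense of `Statement.lean` is `isec L L`** -/
theorem selfInt : D.SelfInt (RR.isec A.L A.L).re := by
  have hcs : (A.L.chern A.a).Smooth := by
    rw [chern_eq_cF]
    exact cF_smooth (isNormFn A)
  rw [isec_self_chern A]
  have h := reg2_wedge hcs hcs
  exact selfInt_of_hasInt A (hasInt_intX (fun e he => (h e he).of_le (by simp))
    (HasCompactSupport.of_compactSpace _))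

end isec

end Vale.Agent.P267.H365
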